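import Vale.Agent.P062.Defs

/-! # P062: Snaky with a bounded number of claims -/

namespace Vale.Agent.P062

/-- Maker has a strategy (Maker moves first) that, against every play in which Breaker's first `m`
claims are legal and lie in `R`, makes legal claims in `S` only and owns all cells of an allowed
copy after at most `m` claims of his own. -/
def MakerWinsWithin (m : ℕ) (S R : Set Cell) : Prop :=
  ∃ σ : Strategy, ∀ b : ℕ → Cell, (∀ k < m, b k ∈ R ∧ BreakerLegal σ b k) →
    ∃ n ≤ m, (∀ k < n, makerClaim σ b k ∈ S ∧ MakerLegal σ b k) ∧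
      ∃ T : Finset Cell, IsCopy T ∧ ∀ c ∈ T, ∃ k < n, makerClaim σ b k = c

end Vale.Agent.P062
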