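import Vale.Agent.P062.H307.Defs
import Vale.Agent.P062.H307.Cert

set_option linter.all false

/-! Maker wins Snaky with at most 20 claims. -/

namespace Vale.Agent.P062.FD

/-- the mask of the board `4 ≤ x, y ≤ 22` -/
def bd : ℕ := 706002143246642511286786599763483523372962344899121425463657799555485639656917405323448239438493781130413136852304154011067708322828978733665761905384679231007526252832695228980840691219801548360444032192333315653500928

theorem bd_spec : ∀ n < 1024, bd.testBit n = true →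
    4 ≤ n % 32 ∧ n % 32 ≤ 22 ∧ 4 ≤ n / 32 ∧ n / 32 ≤ 22 := by decide +kernel

theorem bd_lt : bd < 2 ^ 1024 := by decide +kernel

def boxS : Set Cell := {c | 4 ≤ c.1 ∧ c.1 ≤ 22 ∧ 4 ≤ c.2 ∧ c.2 ≤ 22}

theorem cells_bd : cells bd ⊆ boxS := by
  rintro c ⟨n, hn, rfl⟩
  have hlt : n < 1024 := by
    by_contra h
    have h1 : bd.testBit n = false := by
      apply Nat.testBit_lt_two_pow
      exact bd_lt.trans_le (Nat.pow_le_pow_right (by norm_num) (by omega))
    rw [h1] at hn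
    exact absurd hn (by simp)
  obtain ⟨h1, h2, h3, h4⟩ := bd_spec n hlt hn
  simp only [boxS, cellOf, Set.mem_setOf_eq]
  refine ⟨?_, ?_, ?_, ?_⟩ <;> exact_mod_cast (by assumption)

theorem mwr_box {x C W d : ℕ} (h : PartN d C W 0) (hC : Nat.beq C (Nat.shiftLeft 1 x) = true)
    (hW : Nat.beq (Nat.lor W bd) bd = true)
    (hx : Nat.testBit bd x = true) : MWR boxS (d + 1) ∅ ∅ := by
  rw [Nat.eq_of_beq_eq_true hC] at h
  refine MWR_of_PartN boxS h (cells_bd (mem_cells_cellOf.2 hx)) ?_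
  exact (cells_subset_of_lor (Nat.eq_of_beq_eq_true hW)).trans cells_bd

theorem mwr : MWR boxS 20 ∅ ∅ :=
  mwr_box (x := 429) Cert.L128 (by decide +kernel) (by decide +kernel) (by decide +kernel)

theorem MWR.monoR {R R' : Set Cell} {n : ℕ} {M B : Finset Cell} (h : MWR R n M B)
    (hR : R ⊆ R') : MWR R' n M B := by
  induction h with
  | @done n M B T hT hs => exact MWR.done T hT hs
  | @step n M B x hx hM hB h ih => exact MWR.step x (hR hx) hM hB ih

theorem mwr_square (a b : ℤ) :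
    MWR (Set.Icc a (a + 18) ×ˢ Set.Icc b (b + 18) : Set Cell) 20 ∅ ∅ := by
  have h := MWR.iso (isoTrans (a - 4, b - 4)) mwr
  rw [Finset.map_empty] at h
  refine h.monoR ?_
  rintro c ⟨d, hd, rfl⟩
  simp only [boxS, Set.mem_setOf_eq] at hd
  simp only [isoTrans, Equiv.coe_addLeft, Set.mem_prod, Set.mem_Icc, Prod.fst_add, Prod.snd_add]
  omega

theorem within_of_mwr {n : ℕ} {S R : Set Cell} (h : MWR S n ∅ ∅) : MakerWinsWithin n S R := by
  obtain ⟨σ, hσ⟩ := exists_strat h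
  refine ⟨σ, fun b hb => ?_⟩
  obtain ⟨j, hj, h1, T, hT, h2⟩ := hσ b (fun k hk => ⟨by simp, by simp, (hb k hk).2⟩)
  refine ⟨j, hj, fun k hk => ⟨(h1 k hk).1, (h1 k hk).2.2.2⟩, T, hT, fun c hc => ?_⟩
  rcases h2 c hc with h | h
  · simp at h
  · exact h

theorem within_board (a b : ℤ) (R : Set Cell)
    (h : (Set.Icc a (a + 18) ×ˢ Set.Icc b (b + 18) : Set Cell) ⊆ R) :
    MakerWinsWithin 20 R R :=
  within_of_mwr ((mwr_square a b).monoR h)

theorem within_compl (F : Finset Cell) :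
    MakerWinsWithin 20 ((F : Set Cell)ᶜ) ((F : Set Cell)ᶜ) := by
  obtain ⟨M, hM⟩ := (F.image Prod.fst).exists_le
  refine within_board (M + 1) 0 _ ?_
  rintro c ⟨⟨h1, _⟩, _⟩ hc
  have := hM c.1 (Finset.mem_image_of_mem _ (by exact_mod_cast hc))
  omega

theorem win : MakerHasWinningStrategy := by
  obtain ⟨σ, hσ⟩ := exists_strat (mwr_square 0 0)
  refine ⟨σ, fun b hb => ?_⟩
  obtain ⟨j, hj, h1, T, hT, h2⟩ := hσ b (fun k hk => ⟨by simp, by simp, hb k⟩)
  have hj0 : j ≠ 0 := by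
    rintro rfl
    obtain ⟨t, R, _, rfl⟩ := hT
    rcases h2 (t + R (0, 0)) (Finset.mem_image.2 ⟨(0, 0), by decide, rfl⟩) with h | ⟨k, hk, _⟩
    · simp at h
    · omega
  obtain ⟨i, rfl⟩ := Nat.exists_eq_succ_of_ne_zero hj0
  refine ⟨i, fun k hk => (h1 k (by omega)).2.2.2, T, hT, fun c hc => ?_⟩
  rcases h2 c hc with h | ⟨k, hk, h3⟩
  · simp at h
  · exact ⟨k, by omega, h3⟩

end Vale.Agent.P062.FD
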